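import Mathlib.Data.Finset.Insert
import Mathlib.Data.Set.Finite.Basic
import Mathlib.Tactic.Tauto
import Mathlib.Tactic.Push

/-!
# P248, Hansen and Lima block: graphs without an induced path on four vertices

A finite graph with at least two vertices and no induced path on four vertices splits in two
nonempty parts with all edges, or with no edges, between them.
-/

namespace Vale.Agent.P248Z.HL

variable {α : Type*}

/-- No induced path `a b c d` inside `S`. -/
def PFree (r : α → α → Prop) (S : Set α) : Prop :=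
  ∀ a ∈ S, ∀ b ∈ S, ∀ c ∈ S, ∀ d ∈ S, r a b → r b c → r c d → ¬ r a c → ¬ r b d → ¬ r a d → False

/-- `p` cuts `S` in two nonempty parts and all pairs across the cut are related. -/
def Cut (r : α → α → Prop) (S : Set α) (p : α → Prop) : Prop :=
  (∃ a ∈ S, p a) ∧ (∃ b ∈ S, ¬ p b) ∧ ∀ a ∈ S, ∀ b ∈ S, p a → ¬ p b → r a b

theorem PFree.compl {r : α → α → Prop} {S : Set α} (hs : ∀ a b, r a b → r b a)
    (h : PFree r S) : PFree (fun a b => ¬ r a b) S := by
  intro a ha b hb c hc d hd h1 h2 h3 h4 h5 h6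
  have h4' : r a c := by tauto
  have h5' : r b d := by tauto
  have h6' : r a d := by tauto
  exact h c hc a ha d hd b hb (hs _ _ h4') h6' (hs _ _ h5') h3 h1 (fun h7 => h2 (hs _ _ h7))

theorem cut_step {r : α → α → Prop} {S : Set α} {v : α} (hs : ∀ a b, r a b → r b a)
    (h : PFree r (insert v S)) (hv : v ∉ S) {p : α → Prop}
    (hp : Cut (fun a b => ¬ r a b) S p) :
    ∃ q, Cut r (insert v S) q ∨ Cut (fun a b => ¬ r a b) (insert v S) q := by
  obtain ⟨⟨a0, ha0, hpa0⟩, ⟨b0, hb0, hpb0⟩, hno⟩ := hp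
  have hne : ∀ x ∈ S, x ≠ v := fun x hx hxv => hv (hxv ▸ hx)
  by_cases h1 : ∃ a ∈ S, p a ∧ r v a
  swap
  · refine ⟨fun x => x ≠ v ∧ p x, Or.inr ⟨⟨a0, Or.inr ha0, hne _ ha0, hpa0⟩,
      ⟨v, Or.inl rfl, by simp⟩, ?_⟩⟩
    rintro a (rfl | ha) b hb ⟨hav, hpa⟩ hpb
    · exact absurd rfl hav
    · rcases hb with rfl | hb
      · exact fun hr => h1 ⟨a, ha, hpa, hs _ _ hr⟩
      · exact hno a ha b hb hpa (fun hb' => hpb ⟨hne _ hb, hb'⟩)
  by_cases h2 : ∃ b ∈ S, ¬ p b ∧ r v b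
  swap
  · refine ⟨fun x => x = v ∨ p x, Or.inr ⟨⟨v, Or.inl rfl, Or.inl rfl⟩,
      ⟨b0, Or.inr hb0, fun hh => hh.elim (hne _ hb0) hpb0⟩, ?_⟩⟩
    rintro a ha b (rfl | hb) hpa hpb
    · exact absurd (Or.inl rfl) hpb
    · have hpb' : ¬ p b := fun hh => hpb (Or.inr hh)
      rcases ha with rfl | ha
      · exact fun hr => h2 ⟨b, hb, hpb', hr⟩
      · rcases hpa with rfl | hpa
        · exact absurd ha hv
        · exact hno a ha b hb hpa hpb'
  obtain ⟨a1, ha1, hpa1, hra1⟩ := h1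
  obtain ⟨b1, hb1, hpb1, hrb1⟩ := h2
  by_cases h3 : ∀ x ∈ S, r v x
  · refine ⟨fun x => x = v, Or.inl ⟨⟨v, Or.inl rfl, rfl⟩, ⟨a0, Or.inr ha0, hne _ ha0⟩, ?_⟩⟩
    rintro a _ b (rfl | hb) rfl hpb
    · exact absurd rfl hpb
    · exact h3 b hb
  · push Not at h3
    obtain ⟨u, hu, hru⟩ := h3
    refine ⟨fun x => x ≠ v ∧ ¬ r v x, Or.inr ⟨⟨u, Or.inr hu, hne _ hu, hru⟩,
      ⟨v, Or.inl rfl, by simp⟩, ?_⟩⟩
    rintro b (rfl | hb) a ha ⟨hbv, hrb⟩ hpa
    · exact absurd rfl hbv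
    · rcases ha with rfl | ha
      · exact fun hr => hrb (hs _ _ hr)
      · have hra : r v a := by
          by_contra hh
          exact hpa ⟨hne _ ha, hh⟩
        intro hba
        by_cases hb' : p b
        · have ha' : p a := by
            by_contra hh
            exact hno b hb a ha hb' hh hba
          exact h b (Or.inr hb) a (Or.inr ha) v (Or.inl rfl) b1 (Or.inr hb1) hba (hs _ _ hra) hrb1
            (fun hh => hrb (hs _ _ hh)) (hno a ha b1 hb1 ha' hpb1) (hno b hb b1 hb1 hb' hpb1)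
        · have ha' : ¬ p a := fun hh => hno a ha b hb hh hb' (hs _ _ hba)
          exact h b (Or.inr hb) a (Or.inr ha) v (Or.inl rfl) a1 (Or.inr ha1) hba (hs _ _ hra) hra1
            (fun hh => hrb (hs _ _ hh)) (fun hh => hno a1 ha1 a ha hpa1 ha' (hs _ _ hh))
            (fun hh => hno a1 ha1 b hb hpa1 hb' (hs _ _ hh))

theorem Cut.congr {r r' : α → α → Prop} {S : Set α} {p : α → Prop} (h : Cut r S p)
    (hr : ∀ a b, r a b → r' a b) : Cut r' S p :=
  ⟨h.1, h.2.1, fun a ha b hb h1 h2 => hr _ _ (h.2.2 a ha b hb h1 h2)⟩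

theorem exists_cut_finset {r : α → α → Prop} (hs : ∀ a b, r a b → r b a) (S : Finset α) :
    PFree r (S : Set α) → (∃ a ∈ S, ∃ b ∈ S, a ≠ b) →
      ∃ q, Cut r (S : Set α) q ∨ Cut (fun a b => ¬ r a b) (S : Set α) q := by
  classical
  induction S using Finset.induction_on with
  | empty => rintro _ ⟨a, ha, _⟩; simp at ha
  | insert v S hv ih =>
    intro h hab
    rw [Finset.coe_insert] at h ⊢
    have hv' : v ∉ (S : Set α) := hv
    by_cases hS : ∃ a ∈ S, ∃ b ∈ S, a ≠ b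
    · have hS' : PFree r (S : Set α) := fun a ha b hb c hc d hd =>
        h a (Or.inr ha) b (Or.inr hb) c (Or.inr hc) d (Or.inr hd)
      obtain ⟨p, hp | hp⟩ := ih hS' hS
      · have hs' : ∀ a b, ¬ r a b → ¬ r b a := fun a b h1 h2 => h1 (hs _ _ h2)
        obtain ⟨q, hq | hq⟩ := cut_step (r := fun a b => ¬ r a b) hs' (h.compl hs) hv'
          (hp.congr fun a b h1 h2 => h2 h1)
        · exact ⟨q, Or.inr hq⟩
        · exact ⟨q, Or.inl (hq.congr fun a b h1 => by tauto)⟩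
      · exact cut_step hs h hv' hp
    · push Not at hS
      obtain ⟨a, ha, b, hb, hab⟩ := hab
      obtain ⟨w, hw⟩ : ∃ w, w ∈ S := by
        rcases Finset.mem_insert.1 ha with rfl | ha
        · rcases Finset.mem_insert.1 hb with rfl | hb
          · exact absurd rfl hab
          · exact ⟨b, hb⟩
        · exact ⟨a, ha⟩
      have hwv : w ≠ v := fun hh => hv (hh ▸ hw)
      refine ⟨fun x => x = v, ?_⟩
      by_cases hr : r v w
      · refine Or.inl ⟨⟨v, Or.inl rfl, rfl⟩, ⟨w, Or.inr hw, hwv⟩, ?_⟩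
        intro a' _ b' hb' ha' hpb
        rcases hb' with hb' | hb'
        · exact absurd hb' hpb
        · rw [hS b' hb' w hw, ha']; exact hr
      · refine Or.inr ⟨⟨v, Or.inl rfl, rfl⟩, ⟨w, Or.inr hw, hwv⟩, ?_⟩
        intro a' _ b' hb' ha' hpb
        rcases hb' with hb' | hb'
        · exact absurd hb' hpb
        · rw [hS b' hb' w hw, ha']; exact hr

theorem exists_cut {r : α → α → Prop} (hs : ∀ a b, r a b → r b a) {S : Set α} (hS : S.Finite)
    (h : PFree r S) (hab : ∃ a ∈ S, ∃ b ∈ S, a ≠ b) :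
    ∃ q, Cut r S q ∨ Cut (fun a b => ¬ r a b) S q := by
  lift S to Finset α using hS
  exact exists_cut_finset hs S h hab

end Vale.Agent.P248Z.HL
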