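import Vale.Agent.P248Z.HL.Cograph
import Mathlib.Data.Set.Finite.Lattice
import Mathlib.Data.Set.Finite.Powerset
import Mathlib.Data.Set.Finite.Lemmas
import Mathlib.Order.Preorder.Finite
import Mathlib.Data.Fintype.Powerset

/-!
# P248, Hansen and Lima block: set systems

The vertices of a polytope with the Hanner condition, seen from one vertex, form a family of
subsets of a finite set with the properties in `Dyn`. Such a family has a central element, or a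
pair of complementary atoms, or is trivial.
-/

open Set

namespace Vale.Agent.P248Z.HL

variable {T : Type*}

/-- The closure and interpolation properties of the family. -/
structure Dyn (D : Set (Set T)) : Prop where
  empty : ∅ ∈ D
  compl : ∀ A ∈ D, Aᶜ ∈ D
  swap : ∀ A ∈ D, ∀ B ∈ D, ∀ C ∈ D, A ∩ B ⊆ C → C ⊆ A ∪ B → (A ∩ B) ∪ ((A ∪ B) \ C) ∈ D
  four : ∀ A ∈ D, ∀ B ∈ D, ∀ C ∈ D, ∀ G ∈ D, A ∩ B ⊆ C ∪ G → C ∩ G ⊆ A ∪ B →
    ∃ E ∈ D, A ∩ B ⊆ E ∧ E ⊆ A ∪ B ∧ C ∩ G ⊆ E ∧ E ⊆ C ∪ G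

/-- A minimal nonempty member. -/
def Atom (D : Set (Set T)) (A : Set T) : Prop :=
  A ∈ D ∧ A.Nonempty ∧ ∀ B ∈ D, B ⊆ A → B.Nonempty → B = A

variable {D : Set (Set T)}

theorem Dyn.union (h : Dyn D) {A B : Set T} (hA : A ∈ D) (hB : B ∈ D) (hd : Disjoint A B) :
    A ∪ B ∈ D := by
  have h1 := h.swap A hA B hB ∅ h.empty (by rw [hd.inter_eq]) (empty_subset _)
  rwa [hd.inter_eq, empty_union, sdiff_empty] at h1

theorem Dyn.diff (h : Dyn D) {A B : Set T} (hA : A ∈ D) (hB : B ∈ D) (hs : A ⊆ B) :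
    B \ A ∈ D := by
  have h1 := h.compl _ (h.union (h.compl B hB) hA (disjoint_compl_left_iff_subset.2 hs))
  rwa [compl_union, compl_compl] at h1

theorem Dyn.three (h : Dyn D) {A B C : Set T} (hA : A ∈ D) (hB : B ∈ D) (hC : C ∈ D)
    (hs : A ∩ B ⊆ C) : ∃ E ∈ D, A ∩ B ⊆ E ∧ E ⊆ A ∪ B ∧ E ⊆ C := by
  obtain ⟨E, hE, h1, h2, _, h4⟩ := h.four A hA B hB C hC ∅ h.empty (by rwa [union_empty])
    (by rw [inter_empty]; exact empty_subset _)
  exact ⟨E, hE, h1, h2, by rwa [union_empty] at h4⟩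

theorem Dyn.exists_atom [Finite T] (h : Dyn D) {B : Set T} (hB : B ∈ D) {t : T} (ht : t ∈ B) :
    ∃ A, Atom D A ∧ A ⊆ B ∧ t ∈ A := by
  obtain ⟨A, ⟨hA, hAB, htA⟩, hmin⟩ :=
    (Set.toFinite {A : Set T | A ∈ D ∧ A ⊆ B ∧ t ∈ A}).exists_minimal ⟨B, hB, subset_rfl, ht⟩
  refine ⟨A, ⟨hA, ⟨t, htA⟩, fun C hC hCA hCne => ?_⟩, hAB, htA⟩
  by_cases htC : t ∈ C
  · exact hCA.antisymm (hmin ⟨hC, hCA.trans hAB, htC⟩ hCA)
  · obtain ⟨s, hs⟩ := hCne
    have h1 : A ⊆ A \ C := hmin ⟨h.diff hC hA hCA, sdiff_subset.trans hAB, htA, htC⟩ sdiff_subset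
    exact absurd hs (h1 (hCA hs)).2

theorem Dyn.not_atom (h : Dyn D) {C : Set T} (hC : C ∈ D) (hne : C.Nonempty) (hn : ¬ Atom D C) :
    ∃ C1 ∈ D, ∃ C2 ∈ D, C1.Nonempty ∧ C2.Nonempty ∧ Disjoint C1 C2 ∧ C = C1 ∪ C2 := by
  have h1 : ¬ ∀ B ∈ D, B ⊆ C → B.Nonempty → B = C := fun hh => hn ⟨hC, hne, hh⟩
  push Not at h1
  obtain ⟨B, hB, hBC, hBne, hBC'⟩ := h1
  refine ⟨B, hB, C \ B, h.diff hB hC hBC, hBne, ?_, disjoint_sdiff_right, (union_sdiff_cancel hBC).symm⟩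
  rw [sdiff_nonempty]
  exact fun hh => hBC' (hBC.antisymm hh)

theorem Dyn.inter_mem [Finite T] (h : Dyn D) (P : Set T) {B : Set T} (hB : B ∈ D)
    (hP : ∀ A, Atom D A → A ⊆ B → A ⊆ P ∨ Disjoint A P) : B ∩ P ∈ D := by
  induction B using (wellFounded_lt (α := Set T)).induction with
  | _ B ih =>
    rcases B.eq_empty_or_nonempty with rfl | ⟨t, ht⟩
    · rw [empty_inter]; exact h.empty
    · obtain ⟨A, hA, hAB, htA⟩ := h.exists_atom hB ht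
      have hlt : B \ A < B := ⟨sdiff_subset, fun hh => (hh ht).2 htA⟩
      have h1 := ih (B \ A) hlt (h.diff hA.1 hB hAB) fun C hC hCB => hP C hC (hCB.trans sdiff_subset)
      rcases hP A hA hAB with h2 | h2
      · have h3 : B ∩ P = A ∪ (B \ A) ∩ P := by
          ext s
          constructor
          · rintro ⟨h4, h5⟩
            by_cases h6 : s ∈ A
            · exact Or.inl h6
            · exact Or.inr ⟨⟨h4, h6⟩, h5⟩
          · rintro (h4 | ⟨h4, h5⟩)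
            · exact ⟨hAB h4, h2 h4⟩
            · exact ⟨h4.1, h5⟩
        rw [h3]
        exact h.union hA.1 h1 (disjoint_left.2 fun s hs hs' => hs'.1.2 hs)
      · have h3 : B ∩ P = (B \ A) ∩ P := by
          ext s
          constructor
          · rintro ⟨h4, h5⟩
            exact ⟨⟨h4, fun h6 => disjoint_left.1 h2 h6 h5⟩, h5⟩
          · rintro ⟨h4, h5⟩
            exact ⟨h4.1, h5⟩
        rwa [h3]

/-- The disjointness graph of the atoms has no induced path on four vertices. -/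
theorem Dyn.pfree (h : Dyn D) : PFree (fun A B : Set T => Disjoint A B) {A | Atom D A} := by
  intro A hA B hB C hC G hG hAB hBC hCG hAC hBG hAG
  have hA : Atom D A := hA
  have hB : Atom D B := hB
  have hC : Atom D C := hC
  have hG : Atom D G := hG
  rw [not_disjoint_iff] at hAC hBG hAG
  rw [disjoint_left] at hAB hCG
  obtain ⟨E, hE, h1, h2, h3⟩ := h.three hA.1 hG.1 (h.compl _ (h.union hB.1 hC.1 hBC))
    (by rintro t ⟨h1, h2⟩ (h3 | h3)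
        · exact hAB h1 h3
        · exact hCG h3 h2)
  have hE' := h.swap A hA.1 G hG.1 E hE h1 h2
  obtain ⟨F, hF, h4, h5, h6⟩ := h.three hB.1 hE' hG.1
    (by rintro t ⟨h1, ⟨_, h2⟩ | ⟨h2 | h2, _⟩⟩
        · exact h2
        · exact absurd h1 (hAB h2)
        · exact h2)
  obtain ⟨t0, ht0B, ht0G⟩ := hBG
  have hFG : F = G := hG.2.2 F hF h6
    ⟨t0, h4 ⟨ht0B, Or.inr ⟨Or.inr ht0G, fun hh => h3 hh (Or.inl ht0B)⟩⟩⟩
  have hEA : E ⊆ A := by
    intro t ht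
    by_contra htA
    have htG : t ∈ G := (h2 ht).resolve_left htA
    rcases h5 (hFG ▸ htG) with h7 | ⟨h7, _⟩ | ⟨_, h7⟩
    · exact h3 ht (Or.inl h7)
    · exact htA h7
    · exact h7 ht
  obtain ⟨t1, ht1A, ht1G⟩ := hAG
  have hEA' : E = A := hA.2.2 E hE hEA ⟨t1, h1 ⟨ht1A, ht1G⟩⟩
  obtain ⟨t2, ht2A, ht2C⟩ := hAC
  exact h3 (hEA' ▸ ht2A) (Or.inr ht2C)

/-- The grid argument. -/
theorem Dyn.grid (h : Dyn D) (I J : Set T → Prop)
    (hI : ∀ X E, I X → X.Nonempty → E ∈ D → Disjoint E X → I E)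
    (hIJ : ∀ X Y, I X → J Y → X.Nonempty → Y.Nonempty → (X ∩ Y).Nonempty)
    {A1 A2 A3 B1 B2 B3 : Set T} (hc : ∀ E, E ∈ D → I E → I (E ∩ A3))
    (m1 : A1 ∈ D) (m2 : A2 ∈ D) (n1 : B1 ∈ D) (n2 : B2 ∈ D) (n3 : B3 ∈ D)
    (i1 : I A1) (i2 : I A2) (i3 : I A3) (j1 : J B1) (j2 : J B2) (j3 : J B3)
    (a1 : A1.Nonempty) (a2 : A2.Nonempty) (a3 : A3.Nonempty)
    (b1 : B1.Nonempty) (b2 : B2.Nonempty) (b3 : B3.Nonempty)
    (a12 : Disjoint A1 A2) (a13 : Disjoint A1 A3) (a23 : Disjoint A2 A3)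
    (b12 : Disjoint B1 B2) (b13 : Disjoint B1 B3) (b23 : Disjoint B2 B3) : False := by
  rw [disjoint_left] at a12 a13 a23 b12 b13 b23
  obtain ⟨G, hG, g1, g2, g3, g4⟩ := h.four A1 m1 B1ᶜ (h.compl _ n1) A2ᶜ (h.compl _ m2) B2 n2
    (fun t ht => Or.inl (a12 ht.1)) (fun t ht => Or.inr (fun hh => b12 hh ht.2))
  obtain ⟨E, hE, e1, e2, e3⟩ := h.three hG n3 (h.compl _ m2)
    (by rintro t ⟨h1, h2⟩ h3
        rcases g4 h1 with h4 | h4
        · exact h4 h3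
        · exact b23 h4 h2)
  obtain ⟨F, hF, f1, f2, f3⟩ := h.three (h.compl _ hG) n3 (h.compl _ m1)
    (by rintro t ⟨h1, h2⟩ h3
        exact h1 (g1 ⟨h3, fun hh => b13 hh h2⟩))
  have hE3 : ¬ (E ∩ A3).Nonempty := by
    intro hne
    obtain ⟨t, ⟨h1, h2⟩, h3⟩ := hIJ _ _
      (hc E hE (hI A2 E i2 a2 hE (disjoint_left.2 fun t ht => e3 ht))) j1 hne b1
    rcases e2 h1 with h4 | h4
    · rcases g2 h4 with h5 | h5
      · exact a13 h5 h2
      · exact h5 h3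
    · exact b13 h3 h4
  have hF3 : ¬ (F ∩ A3).Nonempty := by
    intro hne
    obtain ⟨t, ⟨h1, h2⟩, h3⟩ := hIJ _ _
      (hc F hF (hI A1 F i1 a1 hF (disjoint_left.2 fun t ht => f3 ht))) j2 hne b2
    rcases f2 h1 with h4 | h4
    · exact h4 (g3 ⟨fun hh => a23 hh h2, h3⟩)
    · exact b23 h3 h4
  obtain ⟨t, h1, h2⟩ := hIJ _ _ i3 j3 a3 b3
  by_cases htG : t ∈ G
  · exact hE3 ⟨t, e1 ⟨htG, h2⟩, h1⟩
  · exact hF3 ⟨t, f1 ⟨htG, h2⟩, h1⟩

end Vale.Agent.P248Z.HL
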