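import Vale.Agent.P248Z.HL.Main
import Vale.Agent.P248Z.Lim.Main
import Vale.Agent.P248Z.MA.Main

/-!
# P248: the symmetric Mahler conjecture with its equality case
-/

open MeasureTheory

namespace Vale.Agent.P248Z.HL

theorem q1 {n : ℕ} (hn : 1 ≤ n) {K : Set (EuclideanSpace ℝ (Fin n))} (hK : Geo.SymBody K) :
    ENNReal.ofReal (4 ^ n / n.factorial) ≤ volume K * volume (Geo.polE K) ∧
    (volume K * volume (Geo.polE K) = ENNReal.ofReal (4 ^ n / n.factorial) ↔
      ∃ (H : Set (EuclideanSpace ℝ (Fin n)))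
        (T : EuclideanSpace ℝ (Fin n) ≃ₗ[ℝ] EuclideanSpace ℝ (Fin n)),
        Han.IsHanner n H ∧ K = T '' H) :=
  q1_of_input hn (Lens.input_of_inputTheta (Lim.inputTheta_lens MA.lelongMono n)) hK

end Vale.Agent.P248Z.HL
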