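import Vale.Agent.P248Z.HL.Split
import Mathlib.Analysis.Convex.Combination
import Mathlib.Data.Set.Card

/-!
# P248, Hansen and Lima block: the induction
-/

open Set Submodule Pointwise

namespace Vale.Agent.P248Z.HL

variable {E : Type*} [NormedAddCommGroup E] [InnerProductSpace ℝ E] {V W V1 V2 : Set E}

/-- The vertices of the polar of the first summand. -/
def piece (W V1 V2 : Set E) : Set E :=
  {w | w ∈ span ℝ W ∧ (∀ x ∈ V1, inner ℝ w x = 1 ∨ inner ℝ w x = -1) ∧ ∀ x ∈ V2, inner ℝ w x = 0}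

theorem Parts.symm (p : Parts V W V1 V2) (hW : ∀ e ∈ W, -e ∈ W) : Parts V W V2 V1 := by
  refine ⟨p.ne2, p.ne1, p.union.trans (union_comm _ _), p.neg2, p.neg1, fun e he => ?_⟩
  obtain ⟨f, hf, h1, h2⟩ := p.flip e he
  refine ⟨-f, hW f hf, fun x hx => ?_, fun x hx => ?_⟩
  · rw [inner_neg_left, h2 x hx, neg_neg]
  · rw [inner_neg_left, h1 x hx]

theorem Parts.sub1 (p : Parts V W V1 V2) : V1 ⊆ V := p.union ▸ subset_union_left

theorem Parts.sub2 (p : Parts V W V1 V2) : V2 ⊆ V := p.union ▸ subset_union_right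

theorem inner_eq_of_span {S : Set E} {a b : E} (hab : ∀ x ∈ S, inner ℝ a x = inner ℝ b x) {v : E}
    (hv : v ∈ span ℝ S) : inner ℝ a v = inner ℝ b v := by
  induction hv using span_induction with
  | mem x hx => exact hab x hx
  | zero => rw [inner_zero_right, inner_zero_right]
  | add x y _ _ hx hy => rw [inner_add_right, inner_add_right, hx, hy]
  | smul c x _ hx => rw [inner_smul_right, inner_smul_right, hx]

theorem inner_zero_of_span {S : Set E} {a : E} (ha : ∀ x ∈ S, inner ℝ a x = 0) {v : E}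
    (hv : v ∈ span ℝ S) : inner ℝ a v = 0 := by
  rw [inner_eq_of_span (b := 0) (fun x hx => by rw [ha x hx, inner_zero_left]) hv, inner_zero_left]

theorem CL.decomp (h : CL V W) (p : Parts V W V1 V2) {e : E} (he : e ∈ W) :
    ∃ w1 ∈ piece W V1 V2, ∃ w2 ∈ piece W V2 V1, w1 + w2 = e := by
  obtain ⟨f, hf, h1, h2⟩ := p.flip e he
  refine ⟨(1 / 2 : ℝ) • (e + f), ⟨smul_mem _ _ (add_mem (subset_span he) (subset_span hf)),
    fun x hx => ?_, fun x hx => ?_⟩, (1 / 2 : ℝ) • (e - f),
    ⟨smul_mem _ _ (sub_mem (subset_span he) (subset_span hf)), fun x hx => ?_, fun x hx => ?_⟩, ?_⟩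
  · rw [real_inner_smul_left, inner_add_left, h1 x hx]
    rcases h.l.pm e he x (p.sub1 hx) with h3 | h3 <;> rw [h3] <;> norm_num
  · rw [real_inner_smul_left, inner_add_left, h2 x hx]
    ring
  · rw [real_inner_smul_left, inner_sub_left, h2 x hx]
    rcases h.l.pm e he x (p.sub2 hx) with h3 | h3 <;> rw [h3] <;> norm_num
  · rw [real_inner_smul_left, inner_sub_left, h1 x hx]
    ring
  · rw [← smul_add, add_add_sub_cancel, ← two_smul ℝ e, smul_smul]
    norm_num

theorem CL.add_mem_of_piece (h : CL V W) (p : Parts V W V1 V2) {w1 w2 : E}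
    (h1 : w1 ∈ piece W V1 V2) (h2 : w2 ∈ piece W V2 V1) : w1 + w2 ∈ W := by
  refine h.r.clo _ (add_mem h1.1 h2.1) fun x hx => ?_
  rw [real_inner_comm, inner_add_left]
  rcases p.union ▸ hx with hx | hx
  · rw [h2.2.2 x hx, add_zero]
    exact h1.2.1 x hx
  · rw [h1.2.2 x hx, zero_add]
    exact h2.2.1 x hx

theorem CL.eq_add (h : CL V W) (p : Parts V W V1 V2) : W = piece W V1 V2 + piece W V2 V1 := by
  ext e
  constructor
  · exact fun he => h.decomp p he
  · rintro ⟨w1, h1, w2, h2, rfl⟩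
    exact h.add_mem_of_piece p h1 h2

theorem CL.exists_piece (h : CL V W) (p : Parts V W V1 V2) {e : E} (he : e ∈ W) :
    ∃ w ∈ piece W V1 V2, ∀ v ∈ span ℝ V1, inner ℝ w v = inner ℝ e v := by
  obtain ⟨w1, h1, w2, h2, rfl⟩ := h.decomp p he
  refine ⟨w1, h1, fun v hv => ?_⟩
  rw [inner_add_left, inner_zero_of_span h2.2.2 hv, add_zero]

theorem CL.disjoint_span (h : CL V W) (p : Parts V W V1 V2) :
    Disjoint (span ℝ V1) (span ℝ V2) := by
  rw [disjoint_def]
  intro v h1 h2
  refine h.l.sep v (span_mono p.sub1 h1) fun e he => ?_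
  obtain ⟨w, hw, hw'⟩ := h.exists_piece p he
  rw [← hw' v h1, inner_zero_of_span hw.2.2 h2]

theorem span_piece_le : span ℝ (piece W V1 V2) ≤ span ℝ W := span_le.2 fun _ hw => hw.1

theorem inner_zero_of_span_piece {w x : E} (hw : w ∈ span ℝ (piece W V1 V2)) (hx : x ∈ V2) :
    inner ℝ x w = 0 :=
  inner_zero_of_span (fun u hu => by rw [real_inner_comm]; exact hu.2.2 x hx) hw

theorem CL.disjoint_span_piece (h : CL V W) (p : Parts V W V1 V2) :
    Disjoint (span ℝ (piece W V1 V2)) (span ℝ (piece W V2 V1)) := by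
  rw [disjoint_def]
  intro v h1 h2
  refine h.r.sep v (span_piece_le h1) fun x hx => ?_
  rcases p.union ▸ hx with hx | hx
  · exact inner_zero_of_span_piece h2 hx
  · exact inner_zero_of_span_piece h1 hx

theorem CL.ne_zero (h : CL V W) {x : E} (hx : x ∈ V) : x ≠ 0 := by
  rintro rfl
  exact h.neg_ne hx neg_zero

theorem CL.mem_left (h : CL V W) (p : Parts V W V1 V2) {x : E} (hx : x ∈ V)
    (hs : x ∈ span ℝ V1) : x ∈ V1 := by
  rcases p.union ▸ hx with h1 | h1
  · exact h1
  · exact absurd (disjoint_def.1 (h.disjoint_span p) x hs (subset_span h1)) (h.ne_zero hx)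

theorem CL.card_piece (h : CL V W) (p : Parts V W V1 V2) :
    (piece W V1 V2).Finite ∧ (piece W V1 V2).ncard ≤ W.ncard := by
  obtain ⟨e, he⟩ := h.r.ne
  obtain ⟨_, _, w2, h2, _⟩ := h.decomp p he
  have hm : MapsTo (fun w => w + w2) (piece W V1 V2) W := fun w hw => h.add_mem_of_piece p hw h2
  have hi : InjOn (fun w => w + w2) (piece W V1 V2) := fun a _ b _ hab => add_right_cancel hab
  exact ⟨Finite.of_injOn hm hi h.r.fin, ncard_le_ncard_of_injOn _ hm hi h.r.fin⟩

theorem CL.card_left (h : CL V W) (p : Parts V W V1 V2) : V1.ncard < V.ncard := by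
  refine ncard_lt_ncard ⟨p.sub1, fun hs => ?_⟩ h.l.fin
  obtain ⟨y, hy⟩ := p.ne2
  exact h.ne_zero (p.sub2 hy)
    (disjoint_def.1 (h.disjoint_span p) y (subset_span (hs (p.sub2 hy))) (subset_span hy))

theorem CL.piece (h : CL V W) (p : Parts V W V1 V2) : CL V1 (piece W V1 V2) := by
  obtain ⟨e0, he0⟩ := h.r.ne
  obtain ⟨u1, hu1, u2, hu2, _⟩ := h.decomp p he0
  refine ⟨⟨h.l.fin.subset p.sub1, p.ne1, p.neg1, fun w hw x hx => hw.2.1 x hx, fun v hv hv' => ?_,
    fun v hv hv' => ?_⟩, ⟨(h.card_piece p).1, ⟨u1, hu1⟩, fun w hw => ⟨neg_mem hw.1, fun x hx => ?_,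
    fun x hx => ?_⟩, fun x hx w hw => ?_, fun v hv hv' => ?_, fun v hv hv' => ⟨span_piece_le hv,
    fun x hx => ?_, fun x hx => ?_⟩⟩, fun S1 S2 s1 s2 n1 n2 hno => ?_⟩
  · refine h.l.sep v (span_mono p.sub1 hv) fun e he => ?_
    obtain ⟨w, hw, hw'⟩ := h.exists_piece p he
    rw [← hw' v hv, hv' w hw]
  · refine h.mem_left p (h.l.clo v (span_mono p.sub1 hv) fun e he => ?_) hv
    obtain ⟨w, hw, hw'⟩ := h.exists_piece p he
    rw [← hw' v hv]
    exact hv' w hw
  · rw [inner_neg_left]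
    rcases hw.2.1 x hx with h1 | h1 <;> rw [h1] <;> norm_num
  · rw [inner_neg_left, hw.2.2 x hx, neg_zero]
  · rw [real_inner_comm]
    exact hw.2.1 x hx
  · refine h.r.sep v (span_piece_le hv) fun x hx => ?_
    rcases p.union ▸ hx with hx | hx
    · exact hv' x hx
    · exact inner_zero_of_span_piece hv hx
  · rw [real_inner_comm]
    exact hv' x hx
  · rw [real_inner_comm]
    exact inner_zero_of_span_piece hv hx
  · obtain ⟨x, hx, p1, p2⟩ := h.hc S1 S2 (s1.trans p.sub1) (s2.trans p.sub1) n1 n2 (by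
      rintro ⟨e, he, he'⟩
      obtain ⟨w, hw, hw'⟩ := h.exists_piece p he
      refine hno ⟨w, hw, fun s hs => ?_⟩
      rw [hw' s (subset_span (union_subset s1 s2 hs)), he' s hs])
    have hadd : ∀ w ∈ HL.piece W V1 V2, ∀ u ∈ HL.piece W V2 V1, ∀ s ∈ V1,
        inner ℝ (w + u) s = inner ℝ w s := fun w _ u hu s hs => by
      rw [inner_add_left, hu.2.2 s hs, add_zero]
    rcases p.union ▸ hx with hx1 | hx2
    · refine ⟨x, hx1, fun w hw hw' => ?_, fun w hw hw' => ?_⟩
      · rw [← hadd w hw u2 hu2 x hx1]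
        exact p1 _ (h.add_mem_of_piece p hw hu2) fun s hs => by
          rw [hadd w hw u2 hu2 s (s1 hs), hw' s hs]
      · rw [← hadd w hw u2 hu2 x hx1]
        exact p2 _ (h.add_mem_of_piece p hw hu2) fun s hs => by
          rw [hadd w hw u2 hu2 s (s2 hs), hw' s hs]
    · obtain ⟨s0, hs0⟩ := n2
      refine ⟨-s0, p.neg1 _ (s2 hs0), fun w hw hw' => ?_, fun w _ hw' => ?_⟩
      · exfalso
        have he := h.add_mem_of_piece p hw hu2
        have h1 : ∀ s ∈ S1, inner ℝ (w + u2) s = 1 := fun s hs => by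
          rw [hadd w hw u2 hu2 s (s1 hs), hw' s hs]
        obtain ⟨f, hf, f1, f2⟩ := p.flip _ he
        have h2 := p1 _ he h1
        have h3 := p1 f hf fun s hs => by rw [f1 s (s1 hs), h1 s hs]
        have h4 := f2 x hx2
        linarith
      · rw [inner_neg_right, hw' s0 hs0]

theorem CL.pair_right (h : CL V W) {x : E} (hx : V = {-x, x}) : ∃ e, W = {-e, e} := by
  have hxV : x ∈ V := hx ▸ Or.inr rfl
  obtain ⟨e, he, h1⟩ := h.exists_one hxV
  have key : ∀ g ∈ W, inner ℝ g x = 1 → g = e := fun g hg h2 => by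
    refine h.symm.eq_of_inner hg he fun y hy => ?_
    rcases hx ▸ hy with rfl | rfl
    · rw [inner_neg_left, inner_neg_left, real_inner_comm, h2, real_inner_comm, h1]
    · rw [real_inner_comm, h2, real_inner_comm, h1]
  refine ⟨e, Subset.antisymm (fun g hg => ?_) ?_⟩
  · rcases h.l.pm g hg x hxV with h2 | h2
    · exact Or.inr (key g hg h2)
    · left
      rw [← key (-g) (h.r.neg g hg) (by rw [inner_neg_left, h2, neg_neg]), neg_neg]
  · rintro g (rfl | rfl)
    exacts [h.r.neg e he, he]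

theorem span_hull (S : Set E) : span ℝ (convexHull ℝ S) = span ℝ S :=
  le_antisymm (span_le.2 (convexHull_min subset_span (span ℝ S).convex))
    (span_mono (subset_convexHull ℝ S))

section

variable (P : Set E → Prop) (hseg : ∀ v, v ≠ 0 → P (segment ℝ (-v) v))
  (hsum : ∀ K1 K2, P K1 → P K2 → Disjoint (span ℝ K1) (span ℝ K2) → P (convexHull ℝ (K1 ∪ K2)))
  (hprod : ∀ K1 K2, P K1 → P K2 → Disjoint (span ℝ K1) (span ℝ K2) → P (K1 + K2))

include hsum hprod in
theorem CL.step (h : CL V W) (p : Parts V W V1 V2)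
    (ih : ∀ V' W' : Set E, CL V' W' → V'.ncard + W'.ncard < V.ncard + W.ncard →
      P (convexHull ℝ V') ∧ P (convexHull ℝ W')) :
    P (convexHull ℝ V) ∧ P (convexHull ℝ W) := by
  have p' := p.symm h.r.neg
  obtain ⟨a1, a2⟩ := ih _ _ (h.piece p) (add_lt_add_of_lt_of_le (h.card_left p) (h.card_piece p).2)
  obtain ⟨b1, b2⟩ :=
    ih _ _ (h.piece p') (add_lt_add_of_lt_of_le (h.card_left p') (h.card_piece p').2)
  constructor
  · have := hsum _ _ a1 b1 (by rw [span_hull, span_hull]; exact h.disjoint_span p)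
    rwa [convexHull_convexHull_union_left, convexHull_convexHull_union_right, ← p.union] at this
  · have := hprod _ _ a2 b2 (by rw [span_hull, span_hull]; exact h.disjoint_span_piece p)
    rwa [← convexHull_add, ← h.eq_add p] at this

include hseg hsum hprod in
/-- The theorem of Hansen and Lima, as an induction principle. -/
theorem CL.induction (h : CL V W) : P (convexHull ℝ V) ∧ P (convexHull ℝ W) := by
  generalize hN : V.ncard + W.ncard = N
  induction N using Nat.strong_induction_on generalizing V W with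
  | _ N ih =>
    subst hN
    rcases h.split with ⟨V1, V2, p⟩ | ⟨W1, W2, p⟩ | ⟨x, hx⟩
    · exact h.step P hsum hprod p fun V' W' h' hlt => ih _ hlt h' rfl
    · exact (h.symm.step P hsum hprod p fun V' W' h' hlt =>
        ih _ (by rwa [add_comm V.ncard]) h' rfl).symm
    · obtain ⟨e, he⟩ := h.pair_right hx
      have hxV : x ∈ V := hx ▸ Or.inr rfl
      have heW : e ∈ W := he ▸ Or.inr rfl
      have h1 := hseg x (h.ne_zero hxV)
      have h2 := hseg e (h.symm.ne_zero heW)
      rw [← convexHull_pair, ← hx] at h1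
      rw [← convexHull_pair, ← he] at h2
      exact ⟨h1, h2⟩

end

end Vale.Agent.P248Z.HL
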