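import Vale.Agent.P248Z.HL.Ind
import Vale.Agent.P248Z.Eq.Glue
import Vale.Agent.P248Z.Han.Assemble

/-!
# P248, Hansen and Lima block: from the contact property to Hanner polytopes
-/

open Set Submodule MeasureTheory

namespace Vale.Agent.P248Z.HL

section General

variable {E : Type*} [NormedAddCommGroup E] [InnerProductSpace ℝ E] {V W : Finset E}

theorem sep_of_clPair (h : Eq.CLPair V W) {v : E} (hv : ∀ e ∈ W, inner ℝ e v = 0) : v = 0 := by
  obtain ⟨e, he, h1⟩ := Eq.exists_eq_nrm h.neW v
  exact h.symm.eq_zero_of_nrm (by rw [← h1, real_inner_comm, hv e he])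

theorem half_of_clPair (h : Eq.CLPair V W) : Half (V : Set E) (W : Set E) where
  fin := V.finite_toSet
  ne := h.neV
  neg := h.negV
  pm := h.sign
  sep := fun _ _ hv => sep_of_clPair h hv
  clo := fun v _ hv => by
    have h1 : Eq.nrm W v = 1 := by
      refine le_antisymm (Eq.nrm_le h.neW fun e he => ?_) ?_
      · rw [real_inner_comm]
        rcases hv e he with h2 | h2 <;> rw [h2]
        norm_num
      · obtain ⟨e, he⟩ := h.neW
        rcases hv e he with h2 | h2
        · rw [← h2, real_inner_comm]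
          exact Eq.le_nrm v he
        · have := Eq.le_nrm v (h.negW e he)
          rwa [inner_neg_right, real_inner_comm, h2, neg_neg] at this
    obtain ⟨x, hx, hx'⟩ := h.symm.exists_support (u := v) (by rw [h1]; exact one_ne_zero)
    have h3 : x - v = 0 := sep_of_clPair h fun e he => by
      rw [inner_sub_right]
      rcases hv e he with h2 | h2
      · rw [h2, real_inner_comm, hx' e he (by rw [real_inner_comm, h2, h1]), sub_self]
      · have := hx' (-e) (h.negW e he) (by rw [inner_neg_right, real_inner_comm, h2, neg_neg, h1])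
        rw [inner_neg_right, real_inner_comm] at this
        linarith
    rw [← sub_eq_zero.1 h3]
    exact hx

theorem cl_of_clPair (h : Eq.CLPair V W) (hf : Eq.HannerFace V W) : CL (V : Set E) (W : Set E) := by
  refine ⟨half_of_clPair h, half_of_clPair h.symm, fun S1 S2 s1 s2 n1 n2 hno => ?_⟩
  lift S1 to Finset E using V.finite_toSet.subset s1
  lift S2 to Finset E using V.finite_toSet.subset s2
  exact hf.of_sets S1 S2 s1 s2 n1 n2 fun ⟨e, he, h1, h2⟩ =>
    hno ⟨e, he, fun s hs => hs.elim (h1 s) (h2 s)⟩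

/-- The theorem of Hansen and Lima. -/
theorem hlike_of_clPair (h : Eq.CLPair V W) (hf : Eq.HannerFace V W) :
    Han.HLike (convexHull ℝ (V : Set E)) :=
  ((cl_of_clPair h hf).induction Han.HLike Han.hlike_seg Han.hlike_hull Han.hlike_prod).1

end General

theorem hlike_of_contact {n : ℕ} (hn : 1 ≤ n) (K : Set (EuclideanSpace ℝ (Fin n)))
    (h : Geo.SymBody K) (c₁ : ∀ x ∈ Geo.polE K, ∀ v ∈ K, Geo.ContactE Lens.lam K x v)
    (c₂ : ∀ x ∈ K, ∀ v ∈ Geo.polE K, Geo.ContactE Lens.lam (Geo.polE K) x v) : Han.HLike K := by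
  obtain ⟨V, W, h1, rfl, -, h2, -⟩ := Eq.structure_of_contactE hn h c₁ c₂
  exact hlike_of_clPair h1 h2

/-- The symmetric Mahler conjecture with its equality case, given the analytic input. -/
theorem q1_of_input {n : ℕ} (hn : 1 ≤ n) (hA : Geo.Input Lens.lam n)
    {K : Set (EuclideanSpace ℝ (Fin n))} (hK : Geo.SymBody K) :
    ENNReal.ofReal (4 ^ n / n.factorial) ≤ volume K * volume (Geo.polE K) ∧
    (volume K * volume (Geo.polE K) = ENNReal.ofReal (4 ^ n / n.factorial) ↔
      ∃ (H : Set (EuclideanSpace ℝ (Fin n)))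
        (T : EuclideanSpace ℝ (Fin n) ≃ₗ[ℝ] EuclideanSpace ℝ (Fin n)),
        Han.IsHanner n H ∧ K = T '' H) :=
  Han.q1_of Lens.profile_lam hA (hlike_of_contact hn) hK

end Vale.Agent.P248Z.HL
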