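import Vale.Agent.P248Z.HL.Tricho
import Mathlib.Analysis.InnerProductSpace.Basic

/-!
# P248, Hansen and Lima block: pairs of vertex sets

`V` is the vertex set of a symmetric polytope and `W` the vertex set of its polar, both inside an
ambient inner product space. The pairing takes the values `1` and `-1` only, and the condition of
Hanner on faces holds. Then `V` or `W` splits, or `V` is a pair of opposite points.
-/

open Set Submodule

namespace Vale.Agent.P248Z.HL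

variable {E : Type*} [NormedAddCommGroup E] [InnerProductSpace ℝ E]

/-- The condition of Hanner: if no point of `W` is `1` on `S1` and on `S2`, then the face spanned
by `S1` meets the negative of the face spanned by `S2`. -/
def HC (V W : Set E) : Prop :=
  ∀ S1 S2 : Set E, S1 ⊆ V → S2 ⊆ V → S1.Nonempty → S2.Nonempty →
    (¬ ∃ e ∈ W, ∀ s ∈ S1 ∪ S2, inner ℝ e s = 1) →
    ∃ x ∈ V, (∀ e ∈ W, (∀ s ∈ S1, inner ℝ e s = 1) → inner ℝ e x = 1) ∧
      (∀ e ∈ W, (∀ s ∈ S2, inner ℝ e s = 1) → inner ℝ e x = -1)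

/-- One half of the axioms. -/
structure Half (V W : Set E) : Prop where
  fin : V.Finite
  ne : V.Nonempty
  neg : ∀ x ∈ V, -x ∈ V
  pm : ∀ e ∈ W, ∀ x ∈ V, inner ℝ e x = 1 ∨ inner ℝ e x = -1
  sep : ∀ v ∈ span ℝ V, (∀ e ∈ W, inner ℝ e v = 0) → v = 0
  clo : ∀ v ∈ span ℝ V, (∀ e ∈ W, inner ℝ e v = 1 ∨ inner ℝ e v = -1) → v ∈ V

/-- The axioms for a pair. -/
structure CL (V W : Set E) : Prop where
  l : Half V W
  r : Half W V
  hc : HC V W

variable {V W : Set E}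

theorem HC.symm (h : HC V W) (hV : ∀ x ∈ V, -x ∈ V) (hW : ∀ x ∈ W, -x ∈ W) : HC W V := by
  intro T1 T2 h1 h2 n1 n2 hno
  by_cases e1 : ∃ x ∈ V, ∀ t ∈ T1, inner ℝ x t = 1
  swap
  · obtain ⟨t, ht⟩ := n2
    refine ⟨-t, hW t (h2 ht), fun x hx hx' => absurd ⟨x, hx, hx'⟩ e1, fun x _ hx' => ?_⟩
    rw [inner_neg_right, hx' t ht]
  by_cases e2 : ∃ x ∈ V, ∀ t ∈ T2, inner ℝ x t = 1
  swap
  · obtain ⟨t, ht⟩ := n1
    exact ⟨t, h1 ht, fun x _ hx' => hx' t ht, fun x hx hx' => absurd ⟨x, hx, hx'⟩ e2⟩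
  by_contra hcon
  obtain ⟨x1, hx1, hx1'⟩ := e1
  obtain ⟨x2, hx2, hx2'⟩ := e2
  obtain ⟨x, hx, p1, p2⟩ := h {x | x ∈ V ∧ ∀ t ∈ T1, inner ℝ x t = 1}
    {x | x ∈ V ∧ ∀ t ∈ T2, inner ℝ x t = -1} (fun _ hx => hx.1) (fun _ hx => hx.1)
    ⟨x1, hx1, hx1'⟩ ⟨-x2, hV _ hx2, fun t ht => by rw [inner_neg_left, hx2' t ht]⟩ (by
      rintro ⟨e, he, he'⟩
      refine hcon ⟨e, he, fun x hx hx' => ?_, fun x hx hx' => ?_⟩
      · rw [real_inner_comm]; exact he' x (Or.inl ⟨hx, hx'⟩)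
      · have := he' (-x) (Or.inr ⟨hV _ hx, fun t ht => by rw [inner_neg_left, hx' t ht]⟩)
        rw [inner_neg_right, real_inner_comm] at this
        linarith)
  refine hno ⟨x, hx, ?_⟩
  rintro t (ht | ht)
  · rw [real_inner_comm]
    exact p1 t (h1 ht) fun s hs => by rw [real_inner_comm]; exact hs.2 t ht
  · have := p2 (-t) (hW _ (h2 ht)) fun s hs => by
      rw [inner_neg_left, real_inner_comm, hs.2 t ht, neg_neg]
    rw [inner_neg_left, real_inner_comm] at this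
    linarith

theorem CL.symm (h : CL V W) : CL W V := ⟨h.r, h.l, h.hc.symm h.l.neg h.r.neg⟩

/-- `V` is the union of two symmetric parts, and changing the sign of a point of `W` on the second
part gives a point of `W`. -/
structure Parts (V W V1 V2 : Set E) : Prop where
  ne1 : V1.Nonempty
  ne2 : V2.Nonempty
  union : V = V1 ∪ V2
  neg1 : ∀ x ∈ V1, -x ∈ V1
  neg2 : ∀ x ∈ V2, -x ∈ V2
  flip : ∀ e ∈ W, ∃ f ∈ W, (∀ x ∈ V1, inner ℝ f x = inner ℝ e x) ∧
    ∀ x ∈ V2, inner ℝ f x = -inner ℝ e x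

theorem CL.eq_of_inner (h : CL V W) {x y : E} (hx : x ∈ V) (hy : y ∈ V)
    (hxy : ∀ e ∈ W, inner ℝ e x = inner ℝ e y) : x = y := by
  rw [← sub_eq_zero]
  refine h.l.sep _ (sub_mem (subset_span hx) (subset_span hy)) fun e he => ?_
  rw [inner_sub_right, hxy e he, sub_self]

theorem CL.exists_one (h : CL V W) {x : E} (hx : x ∈ V) : ∃ e ∈ W, inner ℝ e x = 1 := by
  obtain ⟨e, he⟩ := h.r.ne
  rcases h.l.pm e he x hx with h1 | h1
  · exact ⟨e, he, h1⟩
  · exact ⟨-e, h.r.neg e he, by rw [inner_neg_left, h1, neg_neg]⟩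

theorem CL.neg_ne (h : CL V W) {x : E} (hx : x ∈ V) : -x ≠ x := by
  obtain ⟨e, _, h1⟩ := h.exists_one hx
  intro hh
  have h2 : inner ℝ e (-x) = 1 := by rw [hh, h1]
  rw [inner_neg_right, h1] at h2
  norm_num at h2

/-- Separation of a point from a face, when all cross pairs are edges. -/
theorem CL.sep_point (h : CL V W) {V1 V2 : Set E} (s1 : V1 ⊆ V) (s2 : V2 ⊆ V)
    (hd : Disjoint V1 V2) (neg1 : ∀ x ∈ V1, -x ∈ V1) (neg2 : ∀ x ∈ V2, -x ∈ V2)
    (hedge : ∀ z ∈ V1, ∀ y ∈ V2, ∀ x ∈ V,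
      (∀ e ∈ W, inner ℝ e z = 1 → inner ℝ e y = 1 → inner ℝ e x = 1) → x = z ∨ x = y)
    {y : E} (hy : y ∈ V2) {S : Set E} (hS : S.Finite) :
    S ⊆ V1 → (∃ e ∈ W, ∀ s ∈ S, inner ℝ e s = 1) →
      ∃ e ∈ W, (∀ s ∈ S, inner ℝ e s = 1) ∧ inner ℝ e y = -1 := by
  induction S, hS using Set.Finite.induction_on with
  | empty =>
    intro _ _
    obtain ⟨e, he, h1⟩ := h.exists_one (h.l.neg y (s2 hy))
    refine ⟨e, he, fun s hs => absurd hs (notMem_empty s), ?_⟩
    rw [inner_neg_right] at h1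
    linarith
  | @insert b S _ _ ih =>
    rintro hsub ⟨e0, he0, he0'⟩
    have hb : b ∈ V1 := hsub (Or.inl rfl)
    have hS1 : S ⊆ V1 := fun s hs => hsub (Or.inr hs)
    obtain ⟨e1, he1, he1', he1y⟩ := ih hS1 ⟨e0, he0, fun s hs => he0' s (Or.inr hs)⟩
    by_contra hcon
    rcases S.eq_empty_or_nonempty with rfl | hSne
    · have := hedge b hb (-y) (neg2 y hy) (-b) (s1 (neg1 b hb)) fun e he h1 h2 => by
        exfalso
        refine hcon ⟨e, he, ?_, ?_⟩
        · rintro s (rfl | hs)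
          · exact h1
          · exact absurd hs (notMem_empty s)
        · rw [inner_neg_right] at h2
          linarith
      rcases this with h1 | h1
      · exact h.neg_ne (s1 hb) h1
      · exact disjoint_left.1 hd hb ((neg_injective h1) ▸ hy)
    · obtain ⟨x, hx, p1, p2⟩ := h.hc S {b, -y} (hS1.trans s1)
        (by rintro s (rfl | rfl)
            · exact s1 hb
            · exact s2 (neg2 y hy)) hSne ⟨b, Or.inl rfl⟩ (by
          rintro ⟨e, he, he'⟩
          refine hcon ⟨e, he, ?_, ?_⟩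
          · rintro s (rfl | hs)
            · exact he' s (Or.inr (Or.inl rfl))
            · exact he' s (Or.inl hs)
          · have := he' (-y) (Or.inr (Or.inr rfl))
            rw [inner_neg_right] at this
            linarith)
      have := hedge b hb (-y) (neg2 y hy) (-x) (h.l.neg x hx) fun e he h1 h2 => by
        rw [inner_neg_right, p2 e he (by rintro s (rfl | rfl); exacts [h1, h2]), neg_neg]
      rcases this with h1 | h1
      · have h2 := p1 e0 he0 fun s hs => he0' s (Or.inr hs)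
        have h3 := he0' b (Or.inl rfl)
        rw [← h1, inner_neg_right] at h3
        linarith
      · have h2 := p1 e1 he1 he1'
        rw [neg_injective h1] at h2
        linarith

theorem CL.parts_of_edges (h : CL V W) {V1 V2 : Set E} (hu : V = V1 ∪ V2)
    (hd : Disjoint V1 V2) (ne1 : V1.Nonempty) (ne2 : V2.Nonempty)
    (neg1 : ∀ x ∈ V1, -x ∈ V1) (neg2 : ∀ x ∈ V2, -x ∈ V2)
    (hedge : ∀ z ∈ V1, ∀ y ∈ V2, ∀ x ∈ V,
      (∀ e ∈ W, inner ℝ e z = 1 → inner ℝ e y = 1 → inner ℝ e x = 1) → x = z ∨ x = y) :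
    Parts V W V1 V2 := by
  have s1 : V1 ⊆ V := hu ▸ subset_union_left
  have s2 : V2 ⊆ V := hu ▸ subset_union_right
  refine ⟨ne1, ne2, hu, neg1, neg2, fun e he => ?_⟩
  have hex : ∃ f ∈ W, ∀ s ∈ {x | x ∈ V1 ∧ inner ℝ e x = 1} ∪ {x | x ∈ V2 ∧ inner ℝ e x = -1},
      inner ℝ f s = 1 := by
    by_contra hcon
    obtain ⟨x, hx, p1, p2⟩ := h.hc _ _ (fun s hs => s1 hs.1) (fun s hs => s2 hs.1) (by
      obtain ⟨z, hz⟩ := ne1
      rcases h.l.pm e he z (s1 hz) with h1 | h1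
      · exact ⟨z, hz, h1⟩
      · exact ⟨-z, neg1 z hz, by rw [inner_neg_right, h1, neg_neg]⟩) (by
      obtain ⟨z, hz⟩ := ne2
      rcases h.l.pm e he z (s2 hz) with h1 | h1
      · exact ⟨-z, neg2 z hz, by rw [inner_neg_right, h1]⟩
      · exact ⟨z, hz, h1⟩) hcon
    rcases hu ▸ hx with hx1 | hx2
    · obtain ⟨f, hf, hf1, hf2⟩ := h.sep_point s2 s1 hd.symm neg2 neg1
        (fun z hz y hy x hx hh => (hedge y hy z hz x hx fun e he h1 h2 => hh e he h2 h1).symm)
        (neg1 x hx1) (S := {x | x ∈ V2 ∧ inner ℝ e x = -1})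
        (h.l.fin.subset fun s hs => s2 hs.1) (fun s hs => hs.1)
        ⟨-e, h.r.neg e he, fun s hs => by rw [inner_neg_left, hs.2, neg_neg]⟩
      have := p2 f hf hf1
      rw [inner_neg_right] at hf2
      linarith
    · obtain ⟨f, hf, hf1, hf2⟩ := h.sep_point s1 s2 hd neg1 neg2 hedge hx2
        (S := {x | x ∈ V1 ∧ inner ℝ e x = 1})
        (h.l.fin.subset fun s hs => s1 hs.1) (fun s hs => hs.1) ⟨e, he, fun s hs => hs.2⟩
      have := p1 f hf hf1
      linarith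
  obtain ⟨f, hf, hf'⟩ := hex
  refine ⟨f, hf, fun x hx => ?_, fun x hx => ?_⟩
  · rcases h.l.pm e he x (s1 hx) with h1 | h1
    · rw [h1, hf' x (Or.inl ⟨hx, h1⟩)]
    · have := hf' (-x) (Or.inl ⟨neg1 x hx, by rw [inner_neg_right, h1, neg_neg]⟩)
      rw [inner_neg_right] at this
      linarith
  · rcases h.l.pm e he x (s2 hx) with h1 | h1
    · have := hf' (-x) (Or.inr ⟨neg2 x hx, by rw [inner_neg_right, h1]⟩)
      rw [inner_neg_right] at this
      linarith
    · rw [h1, hf' x (Or.inr ⟨hx, h1⟩), neg_neg]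

end Vale.Agent.P248Z.HL
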