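import Vale.Agent.P248Z.HL.Pair

/-!
# P248, Hansen and Lima block: the splitting theorem
-/

open Set Submodule

namespace Vale.Agent.P248Z.HL

variable {E : Type*} [NormedAddCommGroup E] [InnerProductSpace ℝ E] {V W : Set E}

/-- The points of `W` that are `1` at `x0`. -/
abbrev Base (W : Set E) (x0 : E) : Type _ := {e : E // e ∈ W ∧ inner ℝ e x0 = 1}

/-- The points of the base that are `-1` at `x`. -/
def sgnSet (W : Set E) (x0 x : E) : Set (Base W x0) := {e | inner ℝ e.1 x = -1}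

variable {x0 : E}

theorem CL.forall_base (h : CL V W) (h0 : x0 ∈ V) {Q : E → Prop}
    (h1 : ∀ t : Base W x0, Q t.1) (h2 : ∀ t : Base W x0, Q (-t.1)) : ∀ e ∈ W, Q e := by
  intro e he
  rcases h.l.pm e he x0 h0 with h3 | h3
  · exact h1 ⟨e, he, h3⟩
  · have := h2 ⟨-e, h.r.neg e he, by rw [inner_neg_left, h3, neg_neg]⟩
    rwa [neg_neg] at this

theorem CL.not_mem_sgnSet (h : CL V W) {x : E} (hx : x ∈ V) (t : Base W x0) :
    t ∉ sgnSet W x0 x ↔ inner ℝ t.1 x = 1 := by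
  constructor
  · exact fun h1 => (h.l.pm _ t.2.1 x hx).resolve_right h1
  · intro h1 h2
    have h3 : inner ℝ t.1 x = -1 := h2
    linarith

theorem mem_sgnSet {x : E} (t : Base W x0) : t ∈ sgnSet W x0 x ↔ inner ℝ t.1 x = -1 := Iff.rfl

theorem sgnSet_self : sgnSet W x0 x0 = ∅ := by
  ext t
  have := t.2.2
  simp only [mem_sgnSet, mem_empty_iff_false, iff_false]
  linarith

theorem CL.sgnSet_neg (h : CL V W) {x : E} (hx : x ∈ V) :
    sgnSet W x0 (-x) = (sgnSet W x0 x)ᶜ := by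
  ext t
  rw [mem_compl_iff, h.not_mem_sgnSet hx, mem_sgnSet, inner_neg_right, neg_inj]

theorem CL.inner_eq_of_iff (h : CL V W) {x y : E} (hx : x ∈ V) (hy : y ∈ V) {t : Base W x0}
    (ht : t ∈ sgnSet W x0 x ↔ t ∈ sgnSet W x0 y) : inner ℝ t.1 x = inner ℝ t.1 y := by
  by_cases h1 : t ∈ sgnSet W x0 x
  · rw [(mem_sgnSet t).1 h1, (mem_sgnSet t).1 (ht.1 h1)]
  · rw [(h.not_mem_sgnSet hx t).1 h1, (h.not_mem_sgnSet hy t).1 fun h2 => h1 (ht.2 h2)]

theorem CL.sgnSet_inj (h : CL V W) (h0 : x0 ∈ V) {x y : E} (hx : x ∈ V) (hy : y ∈ V)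
    (hxy : sgnSet W x0 x = sgnSet W x0 y) : x = y := by
  have h1 : ∀ t : Base W x0, inner ℝ t.1 x = inner ℝ t.1 y := fun t =>
    h.inner_eq_of_iff hx hy (by rw [hxy])
  exact h.eq_of_inner hx hy (h.forall_base h0 h1 fun t => by
    rw [inner_neg_left, inner_neg_left, h1 t])

theorem CL.face_pair (h : CL V W) {a b x : E} (ha : a ∈ V) (hb : b ∈ V)
    (hf : ∀ e ∈ W, inner ℝ e a = 1 → inner ℝ e b = 1 → inner ℝ e x = 1) :
    sgnSet W x0 a ∩ sgnSet W x0 b ⊆ sgnSet W x0 x ∧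
      sgnSet W x0 x ⊆ sgnSet W x0 a ∪ sgnSet W x0 b := by
  constructor
  · rintro t ⟨h1, h2⟩
    have := hf (-t.1) (h.r.neg _ t.2.1) (by rw [inner_neg_left, (mem_sgnSet t).1 h1, neg_neg])
      (by rw [inner_neg_left, (mem_sgnSet t).1 h2, neg_neg])
    rw [inner_neg_left] at this
    rw [mem_sgnSet]
    linarith
  · intro t ht
    by_contra hcon
    rw [mem_union, not_or, h.not_mem_sgnSet ha, h.not_mem_sgnSet hb] at hcon
    have h1 := hf t.1 t.2.1 hcon.1 hcon.2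
    rw [mem_sgnSet] at ht
    linarith

theorem CL.dyn (h : CL V W) (h0 : x0 ∈ V) : Dyn (sgnSet W x0 '' V) where
  empty := ⟨x0, h0, sgnSet_self⟩
  compl := by
    rintro _ ⟨x, hx, rfl⟩
    exact ⟨-x, h.l.neg x hx, h.sgnSet_neg hx⟩
  swap := by
    rintro _ ⟨a, ha, rfl⟩ _ ⟨b, hb, rfl⟩ _ ⟨c, hc, rfl⟩ h1 h2
    have key : ∀ t : Base W x0, (inner ℝ t.1 (a + b - c) = 1 ∨ inner ℝ t.1 (a + b - c) = -1) ∧
        (inner ℝ t.1 (a + b - c) = -1 ↔ t ∈ (sgnSet W x0 a ∩ sgnSet W x0 b) ∪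
          ((sgnSet W x0 a ∪ sgnSet W x0 b) \ sgnSet W x0 c)) := by
      intro t
      have k1 := @h1 t
      have k2 := @h2 t
      simp only [mem_inter_iff, mem_union, mem_sdiff, mem_sgnSet] at k1 k2 ⊢
      rw [inner_sub_right, inner_add_right]
      rcases h.l.pm _ t.2.1 a ha with e1 | e1 <;> rcases h.l.pm _ t.2.1 b hb with e2 | e2 <;>
        rcases h.l.pm _ t.2.1 c hc with e3 | e3 <;> rw [e1, e2, e3] at k1 k2 ⊢ <;>
        revert k1 k2 <;> norm_num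
    refine ⟨a + b - c, h.l.clo _ (sub_mem (add_mem (subset_span ha) (subset_span hb))
      (subset_span hc)) (h.forall_base h0 (fun t => (key t).1) fun t => ?_), ?_⟩
    · rw [inner_neg_left]
      rcases (key t).1 with h3 | h3 <;> rw [h3] <;> norm_num
    · ext t
      exact (key t).2
  four := by
    rintro _ ⟨a, ha, rfl⟩ _ ⟨b, hb, rfl⟩ _ ⟨c, hc, rfl⟩ _ ⟨g, hg, rfl⟩ h1 h2
    obtain ⟨x, hx, p1, p2⟩ := h.hc {a, b} {-c, -g}
      (by rintro s (rfl | rfl); exacts [ha, hb])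
      (by rintro s (rfl | rfl); exacts [h.l.neg c hc, h.l.neg g hg])
      ⟨a, Or.inl rfl⟩ ⟨-c, Or.inl rfl⟩ (by
        rintro ⟨e, he, he'⟩
        have e1 := he' a (Or.inl (Or.inl rfl))
        have e2 := he' b (Or.inl (Or.inr rfl))
        have e3 := he' (-c) (Or.inr (Or.inl rfl))
        have e4 := he' (-g) (Or.inr (Or.inr rfl))
        rw [inner_neg_right] at e3 e4
        revert e1 e2 e3 e4
        refine h.forall_base h0 (Q := fun e => inner ℝ e a = 1 → inner ℝ e b = 1 →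
          -inner ℝ e c = 1 → -inner ℝ e g = 1 → False) (fun t e1 e2 e3 e4 => ?_)
          (fun t e1 e2 e3 e4 => ?_) e he
        · have k := @h2 t
          simp only [mem_inter_iff, mem_union, mem_sgnSet] at k
          rcases k ⟨by linarith, by linarith⟩ with k | k <;> linarith
        · have k := @h1 t
          simp only [mem_inter_iff, mem_union, mem_sgnSet] at k
          rw [inner_neg_left] at e1 e2 e3 e4
          rcases k ⟨by linarith, by linarith⟩ with k | k <;> linarith)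
    obtain ⟨q1, q2⟩ := h.face_pair (x0 := x0) (x := x) ha hb fun e he e1 e2 =>
      p1 e he (by rintro s (rfl | rfl); exacts [e1, e2])
    obtain ⟨q3, q4⟩ := h.face_pair (x0 := x0) (x := x) hc hg fun e he e1 e2 => by
      have := p2 (-e) (h.r.neg e he) (by
        rintro s (rfl | rfl)
        · rw [inner_neg_neg, e1]
        · rw [inner_neg_neg, e2])
      rw [inner_neg_left] at this
      linarith
    exact ⟨_, ⟨x, hx, rfl⟩, q1, q2, q3, q4⟩

theorem CL.parts_of_central (h : CL V W) (h0 : x0 ∈ V) {P : Set (Base W x0)} (hne : P.Nonempty)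
    (hne' : Pᶜ.Nonempty) (hP : ∀ A ∈ sgnSet W x0 '' V, A ∩ P ∈ sgnSet W x0 '' V) :
    ∃ W1 W2, Parts W V W1 W2 := by
  have hd := h.dyn h0
  refine ⟨{e | ∃ t ∈ P, e = t.1 ∨ e = -t.1}, {e | ∃ t ∈ Pᶜ, e = t.1 ∨ e = -t.1}, ?_, ?_, ?_, ?_, ?_,
    fun x hx => ?_⟩
  · obtain ⟨t, ht⟩ := hne
    exact ⟨t.1, t, ht, Or.inl rfl⟩
  · obtain ⟨t, ht⟩ := hne'
    exact ⟨t.1, t, ht, Or.inl rfl⟩
  · refine Subset.antisymm (h.forall_base h0 (fun t => ?_) fun t => ?_) ?_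
    · by_cases ht : t ∈ P
      · exact Or.inl ⟨t, ht, Or.inl rfl⟩
      · exact Or.inr ⟨t, ht, Or.inl rfl⟩
    · by_cases ht : t ∈ P
      · exact Or.inl ⟨t, ht, Or.inr rfl⟩
      · exact Or.inr ⟨t, ht, Or.inr rfl⟩
    · rintro e (⟨t, _, rfl | rfl⟩ | ⟨t, _, rfl | rfl⟩)
      exacts [t.2.1, h.r.neg _ t.2.1, t.2.1, h.r.neg _ t.2.1]
  · rintro e ⟨t, ht, rfl | rfl⟩
    · exact ⟨t, ht, Or.inr rfl⟩
    · exact ⟨t, ht, Or.inl (neg_neg _)⟩
  · rintro e ⟨t, ht, rfl | rfl⟩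
    · exact ⟨t, ht, Or.inr rfl⟩
    · exact ⟨t, ht, Or.inl (neg_neg _)⟩
  · have hA : sgnSet W x0 x ∈ sgnSet W x0 '' V := ⟨x, hx, rfl⟩
    have h1 := hP _ hA
    have h2 := hd.diff (hP _ (hd.compl _ hA)) (hd.compl _ hA) inter_subset_left
    obtain ⟨y, hy, hyx⟩ := hd.union h1 h2 (disjoint_left.2 fun t ht ht' => ht'.1 ht.1)
    have k1 : ∀ t ∈ P, inner ℝ t.1 y = inner ℝ t.1 x := fun t ht =>
      h.inner_eq_of_iff hy hx (by
        rw [hyx]
        simp only [mem_union, mem_inter_iff, mem_sdiff, mem_compl_iff]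
        tauto)
    have k2 : ∀ t ∈ Pᶜ, inner ℝ t.1 y = -inner ℝ t.1 x := fun t ht => by
      rw [← inner_neg_right]
      refine h.inner_eq_of_iff hy (h.l.neg x hx) ?_
      rw [hyx, h.sgnSet_neg hx]
      simp only [mem_union, mem_inter_iff, mem_sdiff, mem_compl_iff] at ht ⊢
      tauto
    refine ⟨y, hy, ?_, ?_⟩
    · rintro e ⟨t, ht, rfl | rfl⟩
      · rw [real_inner_comm, k1 t ht, real_inner_comm]
      · rw [inner_neg_right, inner_neg_right, real_inner_comm, k1 t ht, real_inner_comm]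
    · rintro e ⟨t, ht, rfl | rfl⟩
      · rw [real_inner_comm, k2 t ht, real_inner_comm]
      · rw [inner_neg_right, inner_neg_right, real_inner_comm, k2 t ht, real_inner_comm]

theorem CL.parts_of_atoms (h : CL V W) (h0 : x0 ∈ V) {A : Set (Base W x0)}
    (hA : Atom (sgnSet W x0 '' V) A) (hA' : Atom (sgnSet W x0 '' V) Aᶜ) :
    ∃ V1 V2, Parts V W V1 V2 := by
  have hd := h.dyn h0
  let Q : E → Prop := fun y =>
    Atom (sgnSet W x0 '' V) (sgnSet W x0 y) ∧ Atom (sgnSet W x0 '' V) (sgnSet W x0 y)ᶜ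
  have hQ : ∀ y ∈ V, Q y → Q (-y) := fun y hy hq => by
    simp only [Q]
    rw [h.sgnSet_neg hy, compl_compl]
    exact hq.symm
  refine ⟨{y | y ∈ V ∧ ¬ Q y}, {y | y ∈ V ∧ Q y}, h.parts_of_edges ?_ ?_ ⟨x0, h0, fun hq => ?_⟩ ?_
    (fun y hy => ⟨h.l.neg y hy.1, fun hq => hy.2 ?_⟩)
    (fun y hy => ⟨h.l.neg y hy.1, hQ y hy.1 hy.2⟩) fun z hz y hy x hx hf => ?_⟩
  · ext y
    simp only [mem_union, mem_ofPred_eq]
    tauto
  · exact disjoint_left.2 fun y h1 h2 => h1.2 h2.2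
  · have := hq.1.2.1
    rw [sgnSet_self] at this
    exact not_nonempty_empty this
  · obtain ⟨y, hy, rfl⟩ := hA.1
    exact ⟨y, hy, hA, hA'⟩
  · have := hQ (-y) (h.l.neg y hy.1) hq
    rwa [neg_neg] at this
  · obtain ⟨q1, q2⟩ := h.face_pair (x0 := x0) (x := x) hy.1 hz.1 fun e he e1 e2 => hf e he e2 e1
    rcases hd.edge hy.2.1 hy.2.2 ⟨z, hz.1, rfl⟩ hz.2 ⟨x, hx, rfl⟩ q1 q2 with h1 | h1
    · exact Or.inr (h.sgnSet_inj h0 hx hy.1 h1)
    · exact Or.inl (h.sgnSet_inj h0 hx hz.1 h1)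

/-- The splitting theorem. -/
theorem CL.split (h : CL V W) :
    (∃ V1 V2, Parts V W V1 V2) ∨ (∃ W1 W2, Parts W V W1 W2) ∨ ∃ x, V = {-x, x} := by
  obtain ⟨x0, h0⟩ := h.l.ne
  have : Finite (Base W x0) :=
    (h.r.fin.subset (s := W) (t := {e | e ∈ W ∧ inner ℝ e x0 = 1}) fun e he => he.1).to_subtype
  rcases (h.dyn h0).tricho with ⟨P, hne, hne', hP⟩ | ⟨A, hA, hA'⟩ | h3
  · exact Or.inr (Or.inl (h.parts_of_central h0 hne hne' hP))
  · exact Or.inl (h.parts_of_atoms h0 hA hA')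
  · refine Or.inr (Or.inr ⟨x0, Subset.antisymm (fun x hx => ?_) ?_⟩)
    · rcases h3 _ ⟨x, hx, rfl⟩ with h1 | h1
      · exact Or.inr (h.sgnSet_inj h0 hx h0 (h1.trans sgnSet_self.symm))
      · refine Or.inl (h.sgnSet_inj h0 hx (h.l.neg _ h0) ?_)
        rw [h1, h.sgnSet_neg h0, sgnSet_self, compl_empty]
    · rintro x (rfl | rfl)
      exacts [h.l.neg _ h0, h0]

end Vale.Agent.P248Z.HL
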