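import Vale.Agent.P248Z.HL.Dynkin

/-!
# P248, Hansen and Lima block: the trichotomy for set systems
-/

open Set

namespace Vale.Agent.P248Z.HL

variable {T : Type*} {D : Set (Set T)}

/-- A family of atoms closed under passing to a disjoint atom. -/
def Closed (D : Set (Set T)) (C : Set (Set T)) : Prop :=
  (∀ A ∈ C, Atom D A) ∧ ∀ A ∈ C, ∀ B, Atom D B → Disjoint A B → B ∈ C

/-- A member all of whose atoms lie in the family `C`. -/
def Pure (D : Set (Set T)) (C : Set (Set T)) (X : Set T) : Prop :=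
  X ∈ D ∧ ∀ A, Atom D A → A ⊆ X → A ∈ C

theorem Dyn.pure_of_disjoint [Finite T] (h : Dyn D) {C : Set (Set T)} (hC : Closed D C)
    {X E : Set T} (hX : Pure D C X) (hne : X.Nonempty) (hE : E ∈ D) (hd : Disjoint E X) :
    Pure D C E := by
  obtain ⟨t, ht⟩ := hne
  obtain ⟨A, hA, hAX, _⟩ := h.exists_atom hX.1 ht
  exact ⟨hE, fun B hB hBE => hC.2 A (hX.2 A hA hAX) B hB (hd.symm.mono hAX hBE)⟩

theorem Atom.pure {C : Set (Set T)} {A : Set T} (hA : Atom D A) (hAC : A ∈ C) : Pure D C A :=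
  ⟨hA.1, fun B hB hBA => (hA.2.2 B hB.1 hBA hB.2.1) ▸ hAC⟩

/-- If a closed family has a central member `P` whose complement is not an atom, and there is no
complementary pair of atoms, then the family holds every atom. -/
theorem Dyn.all_mem [Finite T] (h : Dyn D) {C : Set (Set T)} (hC : Closed D C)
    (hno : ∀ A, Atom D A → ¬ Atom D Aᶜ) {P : Set T} (hP : Pure D C P) (hP' : Pure D C Pᶜ)
    (hne : P.Nonempty) (hne' : Pᶜ.Nonempty) (hc : ∀ A ∈ C, A ⊆ P ∨ Disjoint A P)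
    (hat : ¬ Atom D Pᶜ) {B : Set T} (hB : Atom D B) : B ∈ C := by
  by_contra hBC
  have hC' : Closed D {A | Atom D A ∧ A ∉ C} :=
    ⟨fun A hA => hA.1, fun A hA G hG hd => ⟨hG, fun hGC => hA.2 (hC.2 G hGC A hA.1 hd.symm)⟩⟩
  obtain ⟨A1, m1, A2, m2, a1, a2, a12, hA⟩ := h.not_atom hP'.1 hne' hat
  have hBne : Bᶜ.Nonempty := by
    rw [nonempty_compl]
    intro hu
    have h1 : P = B := hB.2.2 P hP.1 (hu ▸ subset_univ _) hne
    rw [h1, hu, compl_univ] at hne'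
    exact not_nonempty_empty hne'
  obtain ⟨B2, n2, B3, n3, b2, b3, b23, hB'⟩ := h.not_atom (h.compl _ hB.1) hBne (hno B hB)
  have j1 : Pure D {A | Atom D A ∧ A ∉ C} B := hB.pure ⟨hB, hBC⟩
  have b12 : Disjoint B B2 := disjoint_compl_right.mono_right (hB' ▸ subset_union_left)
  have b13 : Disjoint B B3 := disjoint_compl_right.mono_right (hB' ▸ subset_union_right)
  have a13 : Disjoint A1 P := disjoint_compl_left.mono_left (hA ▸ subset_union_left)
  have a23 : Disjoint A2 P := disjoint_compl_left.mono_left (hA ▸ subset_union_right)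
  refine h.grid (Pure D C) (Pure D {A | Atom D A ∧ A ∉ C})
    (fun X E hX hXne hE hd => h.pure_of_disjoint hC hX hXne hE hd) ?_ (A3 := P) ?_
    m1 m2 hB.1 n2 n3 (h.pure_of_disjoint hC hP hne m1 a13) (h.pure_of_disjoint hC hP hne m2 a23)
    hP j1 (h.pure_of_disjoint hC' j1 hB.2.1 n2 b12.symm)
    (h.pure_of_disjoint hC' j1 hB.2.1 n3 b13.symm) a1 a2 hne hB.2.1 b2 b3 a12 a13 a23 b12 b13 b23
  · rintro X Y hX hY hXne ⟨t, ht⟩
    by_contra hXY
    have hd : Disjoint Y X := by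
      rw [disjoint_iff_inter_eq_empty, inter_comm]
      exact not_nonempty_iff_eq_empty.1 hXY
    obtain ⟨G, hG, hGY, _⟩ := h.exists_atom hY.1 ht
    exact (hY.2 G hG hGY).2 ((h.pure_of_disjoint hC hX hXne hY.1 hd).2 G hG hGY)
  · intro E hE hE'
    exact ⟨h.inter_mem P hE fun A hA hAE => hc A (hE'.2 A hA hAE),
      fun A hA hAE => hE'.2 A hA (hAE.trans inter_subset_left)⟩

theorem Dyn.tricho [Finite T] (h : Dyn D) :
    (∃ P : Set T, P.Nonempty ∧ Pᶜ.Nonempty ∧ ∀ A ∈ D, A ∩ P ∈ D) ∨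
      (∃ A, Atom D A ∧ Atom D Aᶜ) ∨ ∀ A ∈ D, A = ∅ ∨ A = univ := by
  by_cases h3 : ∀ A ∈ D, A = ∅ ∨ A = univ
  · exact Or.inr (Or.inr h3)
  by_cases h2 : ∃ A, Atom D A ∧ Atom D Aᶜ
  · exact Or.inr (Or.inl h2)
  left
  have hno : ∀ A, Atom D A → ¬ Atom D Aᶜ := fun A hA hA' => h2 ⟨A, hA, hA'⟩
  push Not at h3
  obtain ⟨X, hX, ⟨x, hx⟩, hXu⟩ := h3
  have hnu : ∀ A, Atom D A → Aᶜ.Nonempty := by
    intro A hA
    rw [nonempty_compl]
    intro hu
    exact hXu ((hA.2.2 X hX (hu ▸ subset_univ _) ⟨x, hx⟩).trans hu)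
  obtain ⟨A0, hA0, -, -⟩ := h.exists_atom hX hx
  obtain ⟨C, ⟨hC, hCne⟩, hmin⟩ :=
    (Set.toFinite {C : Set (Set T) | Closed D C ∧ C.Nonempty}).exists_minimal
      ⟨{A | Atom D A}, ⟨fun A hA => hA, fun A _ B hB _ => hB⟩, A0, hA0⟩
  have htwo : ∃ a ∈ C, ∃ b ∈ C, a ≠ b := by
    obtain ⟨A, hA⟩ := hCne
    obtain ⟨t, ht⟩ := hnu A (hC.1 A hA)
    obtain ⟨B, hB, hBA, htB⟩ := h.exists_atom (h.compl _ (hC.1 A hA).1) ht
    exact ⟨A, hA, B, hC.2 A hA B hB (disjoint_compl_right.mono_right hBA),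
      fun hh => ht (hh ▸ htB)⟩
  have hpf : PFree (fun A B : Set T => Disjoint A B) C := fun a ha b hb c hc d hd =>
    h.pfree a (hC.1 a ha) b (hC.1 b hb) c (hC.1 c hc) d (hC.1 d hd)
  obtain ⟨q, ⟨⟨A1, hA1, hq1⟩, ⟨A2, hA2, hq2⟩, hq⟩ | ⟨⟨A1, hA1, hq1⟩, ⟨A2, hA2, hq2⟩, hq⟩⟩ :=
    exists_cut (r := fun A B : Set T => Disjoint A B) (fun a b hab => hab.symm)
      (Set.toFinite C) hpf htwo
  swap
  · exfalso
    have hC' : Closed D {A | A ∈ C ∧ q A} := by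
      refine ⟨fun A hA => hC.1 A hA.1, fun A hA B hB hd => ⟨hC.2 A hA.1 B hB hd, ?_⟩⟩
      by_contra hqB
      exact hq A hA.1 B (hC.2 A hA.1 B hB hd) hA.2 hqB hd
    exact hq2 (hmin ⟨hC', A1, hA1, hq1⟩ (fun A hA => hA.1) hA2).2
  set P : Set T := ⋃₀ {A | A ∈ C ∧ q A} with hPdef
  have hin : ∀ A ∈ C, q A → A ⊆ P := fun A hA hqA => subset_sUnion_of_mem ⟨hA, hqA⟩
  have hout : ∀ A ∈ C, ¬ q A → Disjoint A P := by
    intro A hA hqA
    rw [disjoint_left]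
    rintro t ht ⟨B, hB, htB⟩
    exact disjoint_left.1 (hq B hB.1 A hA hB.2 hqA) htB ht
  have hc : ∀ A ∈ C, A ⊆ P ∨ Disjoint A P := fun A hA => by
    by_cases hqA : q A
    · exact Or.inl (hin A hA hqA)
    · exact Or.inr (hout A hA hqA)
  have hc' : ∀ A ∈ C, A ⊆ Pᶜ ∨ Disjoint A Pᶜ := fun A hA => by
    rcases hc A hA with h1 | h1
    · exact Or.inr (disjoint_compl_right.mono_left h1)
    · exact Or.inl (subset_compl_iff_disjoint_right.2 h1)
  have hat1 := hC.1 A1 hA1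
  have hat2 := hC.1 A2 hA2
  have hne : P.Nonempty := hat1.2.1.mono (hin A1 hA1 hq1)
  have hne' : Pᶜ.Nonempty := hat2.2.1.mono (subset_compl_iff_disjoint_right.2 (hout A2 hA2 hq2))
  have hPD : P ∈ D := by
    have h1 : A1ᶜ ∩ P ∈ D := h.inter_mem P (h.compl _ hat1.1) fun A hA hAc =>
      hc A (hC.2 A1 hA1 A hA (disjoint_compl_right.mono_right hAc))
    have h4 := h.union hat1.1 h1 (disjoint_compl_right.mono_right inter_subset_left)
    have h5 : A1 ∪ A1ᶜ ∩ P = P := by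
      rw [union_inter_distrib_left, union_compl_self, univ_inter]
      exact union_eq_self_of_subset_left (hin A1 hA1 hq1)
    rwa [h5] at h4
  have hP : Pure D C P :=
    h.pure_of_disjoint hC (hat2.pure hA2) hat2.2.1 hPD (hout A2 hA2 hq2).symm
  have hP' : Pure D C Pᶜ :=
    h.pure_of_disjoint hC (hat1.pure hA1) hat1.2.1 (h.compl _ hPD)
      (disjoint_compl_left.mono_right (hin A1 hA1 hq1))
  have hall : ∀ B, Atom D B → B ∈ C := by
    intro B hB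
    by_cases hat : Atom D Pᶜ
    · refine h.all_mem hC hno hP' (by rwa [compl_compl]) hne' (by rwa [compl_compl]) hc' ?_ hB
      exact hno _ hat
    · exact h.all_mem hC hno hP hP' hne hne' hc hat hB
  exact ⟨P, hne, hne', fun A hA => h.inter_mem P hA fun B hB _ => hc B (hall B hB)⟩

theorem Dyn.edge_aux (h : Dyn D) {A C G : Set T} (hA : Atom D A) (hA' : Atom D Aᶜ) (hC : C ∈ D)
    (hne : C.Nonempty) (hnu : C ≠ univ) (hat : ¬ Atom D C) (hG : G ∈ D) (h1 : A ∩ C ⊆ G)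
    (h2 : G ⊆ A ∪ C) : G = A ∨ G = C := by
  obtain ⟨C1, m1, C2, m2, c1, c2, c12, hCC⟩ := h.not_atom hC hne hat
  have hAC : (A ∩ C).Nonempty := by
    by_contra hh
    have h3 : C ⊆ Aᶜ := fun t ht htA => hh ⟨t, htA, ht⟩
    exact hat ((hA'.2.2 C hC h3 hne) ▸ hA')
  have hmeet : ∀ X ∈ D, ∀ Y ∈ D, X.Nonempty → Y.Nonempty → Disjoint X Y → C = X ∪ Y →
      ¬ X ⊆ A := by
    intro X hX Y hY hXne hYne hd hXY hXA
    have h3 : X = A := hA.2.2 X hX hXA hXne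
    have h4 : Y = Aᶜ := hA'.2.2 Y hY (subset_compl_iff_disjoint_left.2 (h3 ▸ hd)) hYne
    exact hnu (by rw [hXY, h3, h4, union_compl_self])
  have hkey : ∀ X ∈ D, ∀ Y, Disjoint X Y → X ⊆ C → ¬ X ⊆ G → ∀ t ∈ Y, t ∈ G → t ∈ A := by
    intro X hX Y hd hXC hXG t htY htG
    obtain ⟨F, hF, f1, f2, f3⟩ := h.three hX (h.compl _ hG) hA'.1
      (fun s hs hsA => hs.2 (h1 ⟨hsA, hXC hs.1⟩))
    obtain ⟨s, hsX, hsG⟩ := not_subset.1 hXG
    have h3 : F = Aᶜ := hA'.2.2 F hF f3 ⟨s, f1 ⟨hsX, hsG⟩⟩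
    by_contra htA
    rcases f2 (h3 ▸ htA : t ∈ F) with h4 | h4
    · exact disjoint_left.1 hd h4 htY
    · exact h4 htG
  have s1 : C1 ⊆ C := hCC ▸ subset_union_left
  have s2 : C2 ⊆ C := hCC ▸ subset_union_right
  have hboth : (¬ C1 ⊆ G ∧ ¬ C2 ⊆ G) ∨ (C1 ⊆ G ∧ C2 ⊆ G) := by
    by_cases e1 : C1 ⊆ G
    · by_cases e2 : C2 ⊆ G
      · exact Or.inr ⟨e1, e2⟩
      · exact absurd (fun t ht => hkey C2 m2 C1 c12.symm s2 e2 t ht (e1 ht))
          (hmeet C1 m1 C2 m2 c1 c2 c12 hCC)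
    · by_cases e2 : C2 ⊆ G
      · exact absurd (fun t ht => hkey C1 m1 C2 c12 s1 e1 t ht (e2 ht))
          (hmeet C2 m2 C1 m1 c2 c1 c12.symm (hCC.trans (union_comm _ _)))
      · exact Or.inl ⟨e1, e2⟩
  rcases hboth with ⟨e1, e2⟩ | ⟨e1, e2⟩
  · left
    refine hA.2.2 G hG (fun t ht => ?_) (hAC.mono h1)
    rcases h2 ht with h3 | h3
    · exact h3
    · rcases hCC ▸ h3 with h4 | h4
      · exact hkey C2 m2 C1 c12.symm s2 e2 t h4 ht
      · exact hkey C1 m1 C2 c12 s1 e1 t h4 ht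
  · right
    have hCG : C ⊆ G := hCC ▸ union_subset e1 e2
    refine Subset.antisymm (fun t ht => ?_) hCG
    by_contra htC
    have h3 : G \ C = A := hA.2.2 _ (h.diff hC hG hCG)
      (fun s hs => (h2 hs.1).resolve_right hs.2) ⟨t, ht, htC⟩
    obtain ⟨s, hsA, hsC⟩ := hAC
    exact (h3 ▸ hsA : s ∈ G \ C).2 hsC

/-- A member of a complementary pair of atoms spans an edge with every member that is not in such
a pair. -/
theorem Dyn.edge (h : Dyn D) {A C G : Set T} (hA : Atom D A) (hA' : Atom D Aᶜ) (hC : C ∈ D)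
    (hC' : ¬ (Atom D C ∧ Atom D Cᶜ)) (hG : G ∈ D) (h1 : A ∩ C ⊆ G) (h2 : G ⊆ A ∪ C) :
    G = A ∨ G = C := by
  rcases C.eq_empty_or_nonempty with rfl | hne
  · rcases G.eq_empty_or_nonempty with rfl | hGne
    · exact Or.inr rfl
    · exact Or.inl (hA.2.2 G hG (by rwa [union_empty] at h2) hGne)
  by_cases hnu : C = univ
  · subst hnu
    rw [inter_univ] at h1
    rcases Gᶜ.eq_empty_or_nonempty with hGe | hGne
    · exact Or.inr (compl_empty_iff.1 hGe)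
    · exact Or.inl (compl_injective (hA'.2.2 Gᶜ (h.compl _ hG) (compl_subset_compl.2 h1) hGne))
  by_cases hat : Atom D C
  · have := h.edge_aux (A := Aᶜ) (C := Cᶜ) (G := Gᶜ) hA' (by rwa [compl_compl]) (h.compl _ hC)
      (nonempty_compl.2 hnu) (fun hh => hne.ne_empty (compl_univ_iff.1 hh))
      (fun hh => hC' ⟨hat, hh⟩) (h.compl _ hG)
      (by rw [← compl_union]; exact compl_subset_compl.2 h2)
      (by rw [← compl_inter]; exact compl_subset_compl.2 h1)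
    exact this.imp (fun hh => compl_injective hh) (fun hh => compl_injective hh)
  · exact h.edge_aux hA hA' hC hne hnu hat hG h1 h2

end Vale.Agent.P248Z.HL
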